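import Vale.Agent.P213.Unit.Layer
import Vale.Agent.P213.Main.Model
import Vale.Agent.P213.Sd.PosetUnit

/-!
# P213, unit: the unit of `c_n Sd² ⊣ Ex² N_n` is a weak equivalence
-/

open CategoryTheory Limits Simplicial Opposite

noncomputable section

namespace Vale.Agent.P213

open Unit in
theorem unit_weakEq_of {c : CylData} (T : TransData c) (n : ℕ∞) (hn : 1 ≤ n)
    (hbase : ∀ (E : Type) [PartialOrder E] [Finite E],
      weakEq ((cAdj n).unit.app (CategoryTheory.nerve E)))
    (K : SSet.{0}) : weakEq ((adjQ (cAdj n)).unit.app K) := by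
  haveI := (cAdj n).leftAdjoint_preservesColimits
  haveI := nerveN_filtered n ℕ
  let ψ : sdTwo ⟶ sdTwo ⋙ cN n ⋙ nerveN n :=
    { app := fun X => (cUnit n).app (sdTwo.obj X)
      naturality := fun X Y f => cUnit_nat n (sdTwo.map f) }
  have hψ : ∀ X, weakEq (ψ.app X) := by
    refine weakEq_of_skeleta ψ (fun _ _ f hf => mono_sdTwo f hf) ?_ fun m I X Y g i b sq _ =>
      weakEq_layer T hn hbase m I g i b sq
    intro X hX
    have h := decomp_cell Empty 0
    obtain ⟨hc⟩ := isColimit_nerve h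
    have hI : IsInitial (CategoryTheory.nerve (Layer Empty 0) : SSet.{0}) :=
      IsInitial.ofUniqueHom (fun Y => hc.desc (Cofan.mk Y fun e : Empty => e.elim))
        fun Y f => hc.hom_ext fun ⟨e⟩ => e.elim
    exact weakEq_cUnit_iso n (hI.uniqueUpToIso (IsInitial.isInitialObj sdTwo X hX))
      (weakEq_cUnit_decomp n hn h fun e => e.elim)
  let adj₂ := SSet.sdExAdjunction.{0}.comp SSet.sdExAdjunction.{0}
  have e : (adjQ (cAdj n)).unit.app K = adj₂.unit.app K ≫ exTwo.map (ψ.app K) :=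
    Adjunction.comp_unit_app adj₂ (cAdj n) K
  rw [e]
  refine KQ.weakEq_comp ?_ ((weakEq_ex_map_iff _).2 ((weakEq_ex_map_iff _).2 (hψ K)))
  rw [show adj₂.unit.app K = SSet.sdExAdjunction.{0}.unit.app K ≫
      SSet.ex.map (SSet.sdExAdjunction.{0}.unit.app (SSet.sd.obj K)) from
    Adjunction.comp_unit_app _ _ K]
  exact KQ.weakEq_comp (weakEq_sdUnit K) ((weakEq_ex_map_iff _).2 (weakEq_sdUnit _))

theorem unit_weakEq_gen {c : CylData} (T : TransData c) (n : ℕ∞) (hn : 1 ≤ n) (K : SSet.{0}) :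
    weakEq ((adjQ (cAdj n)).unit.app K) :=
  unit_weakEq_of T n hn (fun E _ _ => posetUnit_weakEq hn T E) K

end Vale.Agent.P213
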