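import Vale.Agent.P213.KQ.Cell

/-!
# P213, unit: induction over the skeleta
-/

open CategoryTheory Limits Simplicial Opposite

noncomputable section

namespace Vale.Agent.P213.Unit

theorem hasDimensionLT_sigma (n : ℕ) {I : Type} (A : I → SSet.{0})
    [∀ i, (A i).HasDimensionLT n] : (∐ A).HasDimensionLT n where
  degenerate_eq_top m hm := by
    refine Set.eq_univ_of_forall fun a => ?_
    obtain ⟨i, x, rfl⟩ := Cofan.inj_jointly_surjective_of_isColimit
      (isColimitCofanMkObjOfIsColimit ((CategoryTheory.evaluation _ _).obj (op ⦋m⦌)) _ _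
        (coproductIsCoproduct A)) a
    have hx : x ∈ (A i).degenerate m := by
      rw [(A i).degenerate_eq_univ_of_hasDimensionLT n m hm]
      trivial
    exact SSet.degenerate_app_apply hx _

theorem mono_homOfLE {Y : SSet.{0}} {A B : Y.Subcomplex} (h : A ≤ B) :
    Mono (SSet.Subcomplex.homOfLE h) := inferInstance

/-- A natural transformation is a weak equivalence at every simplicial set if it is one at
initial objects and this passes to attaching cells, provided both functors preserve sequential
colimits and the source preserves monomorphisms. -/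
theorem weakEq_of_skeleta {S G : SSet.{0} ⥤ SSet.{0}} (φ : S ⟶ G)
    [PreservesColimitsOfShape ℕ S] [PreservesColimitsOfShape ℕ G]
    (hmono : ∀ ⦃A B : SSet.{0}⦄ (f : A ⟶ B), Mono f → Mono (S.map f))
    (hbot : ∀ K : SSet.{0}, IsInitial K → weakEq (φ.app K))
    (hstep : ∀ (m : ℕ) (I : Type) ⦃X Y : SSet.{0}⦄ (g : (∐ fun _ : I => (∂Δ[m] : SSet.{0})) ⟶ X)
      (i : X ⟶ Y) (b : (∐ fun _ : I => (Δ[m] : SSet.{0})) ⟶ Y),
      IsPushout g (Limits.Sigma.map fun _ : I => ∂Δ[m].ι) i b → Mono i →
      weakEq (φ.app (∐ fun _ : I => (∂Δ[m] : SSet.{0}))) → weakEq (φ.app X) → weakEq (φ.app Y))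
    (K : SSet.{0}) : weakEq (φ.app K) := by
  have nat : ∀ {A B : SSet.{0}} (f : A ⟶ B), S.map f ≫ φ.app B = φ.app A ≫ G.map f :=
    fun f => φ.naturality f
  have hiso : ∀ {A B : SSet.{0}} (e : A ≅ B), weakEq (φ.app A) → weakEq (φ.app B) := by
    intro A B e hA
    refine KQ.weakEq_of_comp_left (KQ.weakEq_of_isIso (S.map e.hom)) ?_
    rw [nat e.hom]
    exact KQ.weakEq_comp hA (KQ.weakEq_of_isIso _)
  have key : ∀ (n : ℕ) (K : SSet.{0}), weakEq (φ.app
      ((SSet.skeletonOfMono (⊥ : K.Subcomplex).ι n : K.Subcomplex) : SSet.{0})) := by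
    intro n
    induction n using Nat.strong_induction_on with
    | _ n ih =>
      intro K
      match n with
      | 0 =>
        refine hiso (SSet.Subcomplex.eqToIso ?_) (hbot _ (SSet.Subcomplex.isInitialBot (X := K)))
        simp
      | n + 1 =>
        have sq := SSet.relativeCellComplexOfMono.isPushout (⊥ : K.Subcomplex).ι n
        refine hstep n _ _ _ _ sq (mono_homOfLE _) ?_ (ih n (Nat.lt_succ_self n) K)
        let L : SSet.{0} :=
          ∐ fun _ : SSet.relativeCellComplexOfMono.Cell (⊥ : K.Subcomplex).ι n =>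
            (∂Δ[n] : SSet.{0})
        have : L.HasDimensionLT n := hasDimensionLT_sigma n _
        have h : SSet.skeletonOfMono (⊥ : L.Subcomplex).ι n = ⊤ := by
          refine (SSet.Subcomplex.eq_top_iff_of_hasDimensionLT _ n).2 fun i hi x _ => ?_
          rw [SSet.skeletonOfMono_obj_eq_top _ hi]
          trivial
        exact hiso (SSet.Subcomplex.eqToIso h ≪≫ SSet.Subcomplex.topIso L)
          (ih n (Nat.lt_succ_self n) L)
  let c := SSet.relativeCellComplexOfMono (⊥ : K.Subcomplex).ι
  exact KQ.weakEq_chain (Functor.whiskerLeft c.F φ)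
    (X := c.F ⋙ S) (Y := c.F ⋙ G)
    (fun n => hmono _ (mono_homOfLE ((SSet.skeletonOfMono _).monotone n.le_succ)))
    (fun n => key n K) (isColimitOfPreserves S c.isColimit) (isColimitOfPreserves G c.isColimit)
    (φ.app K)
    (fun n => nat (c.incl.app n))

end Vale.Agent.P213.Unit
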