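import Vale.Agent.P213.Collage.Nerve

/-!
# P213, unit: disjoint sums of posets
-/

open CategoryTheory Limits Opposite Simplicial

noncomputable section

namespace Vale.Agent.P213.Unit

variable {I : Type} {F : I → Type} [∀ i, PartialOrder (F i)] {T : Type} [PartialOrder T]

/-- A poset is the disjoint sum of a family of posets. -/
structure Decomp (ι : ∀ i, F i →o T) : Prop where
  bij : Function.Bijective fun x : (Σ i, F i) => ι x.1 x.2
  sep : ∀ {i k : I} {a : F i} {b : F k}, ι i a ≤ ι k b → i = k
  refl : ∀ {i : I} {a b : F i}, ι i a ≤ ι i b → a ≤ b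

variable {ι : ∀ i, F i →o T}

namespace Decomp

theorem exists_preimage (h : Decomp ι) (t : T) : ∃ i a, ι i a = t := by
  obtain ⟨⟨i, a⟩, e⟩ := h.bij.2 t
  exact ⟨i, a, e⟩

/-- The summand of a point. -/
def idx (h : Decomp ι) (t : T) : I := (h.exists_preimage t).choose

theorem idx_spec (h : Decomp ι) (t : T) : ∃ a, ι (h.idx t) a = t :=
  (h.exists_preimage t).choose_spec

theorem idx_ι (h : Decomp ι) (i : I) (a : F i) : h.idx (ι i a) = i := by
  obtain ⟨b, e⟩ := h.idx_spec (ι i a)
  exact h.sep e.le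

theorem idx_le (h : Decomp ι) {s t : T} (hst : s ≤ t) : h.idx s = h.idx t := by
  obtain ⟨i, a, rfl⟩ := h.exists_preimage s
  obtain ⟨k, b, rfl⟩ := h.exists_preimage t
  rw [h.idx_ι, h.idx_ι]
  exact h.sep hst

theorem inj (h : Decomp ι) {i : I} {a b : F i} (e : ι i a = ι i b) : a = b :=
  eq_of_heq (Sigma.mk.inj_iff.1 (h.bij.1 (show (fun x : (Σ i, F i) => ι x.1 x.2) ⟨i, a⟩ =
    (fun x : (Σ i, F i) => ι x.1 x.2) ⟨i, b⟩ from e))).2

/-- The retraction onto a summand, on its own part. -/
theorem exists_coordinate (h : Decomp ι) {i : I} {m : ℕ} (s : Fin (m + 1) →o T)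
    (hs : ∀ v, h.idx (s v) = i) :
    ∃ u : Fin (m + 1) →o F i, ∀ v, ι i (u v) = s v := by
  have := fun v => (hs v ▸ h.idx_spec (s v) : ∃ a, ι i a = s v)
  choose u hu using this
  exact ⟨⟨u, fun v w hvw => h.refl (by rw [hu, hu]; exact s.monotone hvw)⟩, hu⟩

end Decomp

/-- The nerve of a disjoint sum is the coproduct of the nerves. -/
theorem isColimit_nerve (h : Decomp ι) :
    Nonempty (IsColimit (Cofan.mk (CategoryTheory.nerve T : SSet.{0}) fun i =>
      (CategoryTheory.nerveMap (ι i).monotone.functor : CategoryTheory.nerve (F i) ⟶ _))) := by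
  refine ⟨evaluationJointlyReflectsColimits _ fun m =>
    (isColimitMapCoconeCofanMkEquiv _ _ _).symm (Classical.choice ?_)⟩
  rw [Cofan.nonempty_isColimit_iff_bijective_fromSigma]
  constructor
  · rintro ⟨i, u⟩ ⟨k, v⟩ e
    have h0 : ∀ w, ι i (u.obj w) = ι k (v.obj w) := fun w =>
      congrArg (fun s : (CategoryTheory.nerve T).obj m => s.obj w) e
    obtain rfl := h.sep (h0 0).le
    obtain rfl : u = v := nerve.ext_of_isThin (funext fun w => h.inj (h0 w))
    rfl
  · intro s
    let f : Fin (m.unop.len + 1) →o T := ⟨fun w => s.obj w, fun _ _ hvw => leOfHom (s.map (homOfLE hvw))⟩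
    obtain ⟨u, hu⟩ := h.exists_coordinate f (i := h.idx (f 0))
      fun v => (h.idx_le (f.monotone (Fin.zero_le v))).symm
    exact ⟨⟨h.idx (f 0), u.monotone.functor⟩, nerve.ext_of_isThin (funext hu)⟩

variable (n : ℕ∞)

/-- `O` of a disjoint sum is the coproduct. -/
theorem isColimit_catO (h : Decomp ι) :
    Nonempty (IsColimit (Cofan.mk (catO n T) fun i => catOMap n (ι i))) := by
  obtain ⟨hc⟩ := isColimit_nerve h
  haveI := (cAdj n).leftAdjoint_preservesColimits
  exact ⟨isColimitCofanMkObjOfIsColimit (cN n) _ _ hc⟩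

open Classical in
/-- The nerve of `O` of a disjoint sum is the coproduct of the nerves. -/
theorem isColimit_nerveN (hn : 1 ≤ n) (h : Decomp ι) :
    Nonempty (IsColimit (Cofan.mk ((nerveN n).obj (catO n T)) fun i =>
      (nerveN n).map (catOMap n (ι i)))) := by
  refine ⟨evaluationJointlyReflectsColimits _ fun m =>
    (isColimitMapCoconeCofanMkEquiv _ _ _).symm (Classical.choice ?_)⟩
  rw [Cofan.nonempty_isColimit_iff_bijective_fromSigma]
  let κ : I → T →o Fin 3 := fun i => ⟨fun t => if h.idx t = i then 1 else 0, fun s t hst => by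
    simp only [h.idx_le hst, le_refl]⟩
  let val : ∀ i, Set.range (ι i) →o F i := fun i =>
    ⟨fun t => t.2.choose, fun s t hst => h.refl (by rw [s.2.choose_spec, t.2.choose_spec]; exact hst)⟩
  have mem : ∀ i t, t ∈ Set.range (ι i) ↔ κ i t = 1 := by
    intro i t
    show t ∈ Set.range (ι i) ↔ (if h.idx t = i then (1 : Fin 3) else 0) = 1
    constructor
    · rintro ⟨a, rfl⟩
      rw [if_pos (h.idx_ι i a)]
    · intro e
      by_cases e' : h.idx t = i
      · exact e' ▸ h.idx_spec t
      · rw [if_neg e'] at e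
        exact absurd e (by decide)
  let cod : ∀ i, F i →o Set.range (ι i) := fun i =>
    ⟨fun a => ⟨ι i a, a, rfl⟩, fun _ _ hab => (ι i).monotone hab⟩
  have e₁ : ∀ i, catOMap n (cod i) ≫ catOMap n (setVal (Set.range (ι i))) = catOMap n (ι i) :=
    fun i => by
      show (cN n).map _ ≫ (cN n).map _ = (cN n).map _
      rw [← Functor.map_comp]
      rfl
  have e₂ : ∀ i, catOMap n (val i) ≫ catOMap n (cod i) = 𝟙 (catO n (Set.range (ι i))) := fun i => by
    have e : (cod i).comp (val i) = OrderHom.id :=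
      OrderHom.ext _ _ (funext fun t => Subtype.ext t.2.choose_spec)
    show (cN n).map _ ≫ (cN n).map _ = _
    rw [← Functor.map_comp]
    refine (congrArg (fun f : Set.range (ι i) →o Set.range (ι i) =>
      (cN n).map (CategoryTheory.nerveMap f.monotone.functor)) e).trans ?_
    exact (cN n).map_id _
  have e₃ : ∀ i, catOMap n (cod i) ≫ catOMap n (val i) = 𝟙 (catO n (F i)) := fun i => by
    have e : (val i).comp (cod i) = OrderHom.id :=
      OrderHom.ext _ _ (funext fun a => h.inj (cod i a).2.choose_spec)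
    show (cN n).map _ ≫ (cN n).map _ = _
    rw [← Functor.map_comp]
    refine (congrArg (fun f : F i →o F i =>
      (cN n).map (CategoryTheory.nerveMap f.monotone.functor)) e).trans ?_
    exact (cN n).map_id _
  have hfull : ∀ i, FullBij (catOMap n (setVal (Set.range (ι i)))) (grade n hn (κ i)) :=
    fun i => fullBij_catO (mem i) hn
  have hall : ∀ i (c : (catO n (Set.range (ι i))).obj.Cell),
      Mid ((catOMap n (setVal (Set.range (ι i)))).hom ≫ grade n hn (κ i)) c :=
    fun i => allMid hn (κ i) fun t ht => (mem i t).1 ht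
  constructor
  · rintro ⟨i, u⟩ ⟨k, v⟩ e
    let uσ : ori (Fin (m.unop.len + 1)) ⟶ (catO n (F i)).obj := u.down
    let vσ : ori (Fin (m.unop.len + 1)) ⟶ (catO n (F k)).obj := v.down
    have e' : uσ ≫ (catOMap n (ι i)).hom = vσ ≫ (catOMap n (ι k)).hom := congrArg ULift.down e
    obtain rfl : i = k := by
      by_contra hik
      let c := vσ.toFun (Table.point 0)
      have hc : (catOMap n (ι i)).hom.toFun (uσ.toFun (Table.point 0)) =
          (catOMap n (ι k)).hom.toFun c :=
        congrArg (fun w : ori (Fin (m.unop.len + 1)) ⟶ (catO n T).obj => w.toFun (Table.point 0)) e'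
      have hm : Mid ((catOMap n (ι i)).hom ≫ grade n hn (κ i)) (uσ.toFun (Table.point 0)) :=
        (show Mid (constOrd _ (1 : Fin 3)) _ from rfl).congr (by
          rw [catOMap_grade, grade_const hn ((κ i).comp (ι i)) 1 fun a => by
            show (if h.idx (ι i a) = i then (1 : Fin 3) else 0) = 1
            rw [if_pos (h.idx_ι i a)]])
      have h0 : (catOMap n (ι k)).hom ≫ grade n hn (κ i) = constOrd _ (0 : Fin 3) := by
        rw [catOMap_grade, grade_const hn ((κ i).comp (ι k)) 0 fun a => by
          show (if h.idx (ι k a) = i then (1 : Fin 3) else 0) = 0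
          rw [if_neg (by rw [h.idx_ι]; exact Ne.symm hik)]]
      have hm' : Mid ((catOMap n (ι k)).hom ≫ grade n hn (κ i)) c := by
        show Mid (grade n hn (κ i)) ((catOMap n (ι k)).hom.toFun c)
        rw [← hc]
        exact hm
      exact absurd (congrArg Prod.fst (hm'.congr h0)) (show ¬((0 : Fin 3) = 1) by decide)
    refine congrArg (Sigma.mk i) (ULift.ext _ _ ?_)
    have e'' : (uσ ≫ (catOMap n (cod i)).hom) ≫ (catOMap n (setVal (Set.range (ι i)))).hom =
        (vσ ≫ (catOMap n (cod i)).hom) ≫ (catOMap n (setVal (Set.range (ι i)))).hom := by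
      simp only [Category.assoc]
      rw [← InducedCategory.comp_hom, e₁]
      exact e'
    have := (hfull i).cancel (fun x => hall i _) (fun x => hall i _) e''
    have h' := congrArg (fun w => w ≫ (catOMap n (val i)).hom) this
    simp only [Category.assoc] at h'
    rw [← InducedCategory.comp_hom, e₃] at h'
    rw [show (𝟙 (catO n (F i)) : catO n (F i) ⟶ _).hom = 𝟙 _ from rfl, Category.comp_id,
      Category.comp_id] at h'
    exact h'
  · intro p
    let σ : ori (Fin (m.unop.len + 1)) ⟶ (catO n T).obj := p.down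
    let t : Fin (m.unop.len + 1) → T := fun v =>
      ((σ ≫ grade n hn OrderHom.id).toFun (Table.point v)).1.1
    let i₀ := h.idx (t 0)
    have hv : ∀ v, ((σ ≫ grade n hn (κ i₀)).toFun (Table.point v)).1.1 = 1 := by
      intro v
      rw [show κ i₀ = (κ i₀).comp OrderHom.id from rfl, ← grade_ordMap]
      show (if h.idx (t v) = i₀ then (1 : Fin 3) else 0) = 1
      rw [if_pos (h.idx_le (ordCat_mono (Φ := σ ≫ grade n hn OrderHom.id) (Fin.zero_le v))).symm]
    obtain ⟨u, hu⟩ := (hfull i₀).lift σ (mid_of_vertices _ hv)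
    refine ⟨⟨i₀, ULift.up (u ≫ (catOMap n (val i₀)).hom)⟩, ULift.ext _ _ ?_⟩
    show (u ≫ (catOMap n (val i₀)).hom) ≫ (catOMap n (ι i₀)).hom = σ
    rw [Category.assoc, ← InducedCategory.comp_hom, ← e₁ i₀, ← Category.assoc (catOMap n (val i₀)),
      e₂, Category.id_comp]
    exact hu

end Vale.Agent.P213.Unit
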