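import Vale.Agent.P213.Unit.Sd
import Vale.Agent.P213.Unit.Sigma
import Vale.Agent.P213.Step.Main
import Vale.Agent.P213.Cat.Filtered
import Vale.Agent.P213.Main.Stable

/-!
# P213, unit: attaching one layer of cells
-/

open CategoryTheory Limits Simplicial Opposite PartialOrder

noncomputable section

namespace Vale.Agent.P213.Unit

variable (n : ℕ∞)

/-- The unit of `c_n ⊣ N_n`. -/
abbrev cUnit : 𝟭 SSet.{0} ⟶ cN n ⋙ nerveN n := (cAdj n).unit

theorem cUnit_nat {X Y : SSet.{0}} (f : X ⟶ Y) :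
    f ≫ (cUnit n).app Y = (cUnit n).app X ≫ (nerveN n).map ((cN n).map f) :=
  (cUnit n).naturality f

theorem weakEq_cUnit_iso {X Y : SSet.{0}} (e : X ≅ Y) (h : weakEq ((cUnit n).app X)) :
    weakEq ((cUnit n).app Y) := by
  refine KQ.weakEq_of_comp_left (KQ.weakEq_of_isIso e.hom) ?_
  exact Eq.mpr (congrArg (fun w => weakEq w) (cUnit_nat n e.hom))
    (KQ.weakEq_comp h (KQ.weakEq_of_isIso _))

theorem weakEq_cUnit_decomp (hn : 1 ≤ n) {I : Type} {F : I → Type} [∀ i, PartialOrder (F i)]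
    {T : Type} [PartialOrder T] {ι : ∀ i, F i →o T} (h : Decomp ι)
    (hF : ∀ i, weakEq ((cUnit n).app (CategoryTheory.nerve (F i)))) :
    weakEq ((cUnit n).app (CategoryTheory.nerve T)) := by
  obtain ⟨hc⟩ := isColimit_nerve h
  obtain ⟨hN⟩ := isColimit_nerveN n hn h
  let A : I → SSet.{0} := fun i => CategoryTheory.nerve (F i)
  have : PreservesColimit (Discrete.functor A) (cN n ⋙ nerveN n) :=
    preservesColimit_of_preserves_colimit_cocone hc
      ((isColimitMapCoconeCofanMkEquiv _ _ _).symm hN)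
  exact weakEq_cUnit_iso n ((coproductIsCoproduct A).coconePointUniqueUpToIso hc)
    (weakEq_app_sigma (cUnit n) A hF)

/-- The cells of a layer. -/
@[ext]
structure Layer (I : Type) (m : ℕ) : Type where
  /-- the cell -/
  fst : I
  /-- the point -/
  snd : P2 m

instance (I : Type) (m : ℕ) : PartialOrder (Layer I m) where
  le x y := x.fst = y.fst ∧ x.snd ≤ y.snd
  le_refl x := ⟨rfl, le_rfl⟩
  le_trans x y z h h' := ⟨h.1.trans h'.1, h.2.trans h'.2⟩
  le_antisymm x y h h' := Layer.ext h.1 (le_antisymm h.2 h'.2)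

/-- A set in each cell of a layer. -/
def inCells (I : Type) {m : ℕ} (A : Set (P2 m)) : Set (Layer I m) := {x | x.snd ∈ A}

theorem layer_fst {I : Type} {m : ℕ} {x y : Layer I m} (h : x ≤ y) : x.fst = y.fst := h.1

theorem layer_snd {I : Type} {m : ℕ} {x y : Layer I m} (h : x ≤ y) : x.snd ≤ y.snd := h.2

/-- The inclusion of a cell. -/
def cellIncl {I : Type} (m : ℕ) (i : I) : P2 m →o Layer I m :=
  ⟨fun a => ⟨i, a⟩, fun _ _ h => ⟨rfl, h⟩⟩

/-- The inclusion of the part of a cell. -/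
def partIncl {I : Type} {m : ℕ} (A : Set (P2 m)) (i : I) : A →o inCells I A :=
  ⟨fun a => ⟨⟨i, a.1⟩, a.2⟩, fun _ _ h => ⟨rfl, h⟩⟩

theorem decomp_cell (I : Type) (m : ℕ) : Decomp (cellIncl (I := I) m) where
  bij := ⟨fun x y h => by
      obtain ⟨i, a⟩ := x
      obtain ⟨k, b⟩ := y
      obtain ⟨rfl, rfl⟩ : i = k ∧ a = b := ⟨congrArg Layer.fst h, congrArg Layer.snd h⟩
      rfl, fun x => ⟨⟨x.fst, x.snd⟩, rfl⟩⟩
  sep h := layer_fst h
  refl h := layer_snd h

theorem decomp_part (I : Type) {m : ℕ} (A : Set (P2 m)) : Decomp (partIncl (I := I) A) where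
  bij := ⟨fun x y h => by
      obtain ⟨i, a, ha⟩ := x
      obtain ⟨k, b, hb⟩ := y
      obtain ⟨rfl, rfl⟩ : i = k ∧ a = b :=
        ⟨congrArg (fun z => z.1.fst) h, congrArg (fun z => z.1.snd) h⟩
      rfl,
    fun x => ⟨⟨x.1.fst, ⟨x.1.snd, x.2⟩⟩, rfl⟩⟩
  sep h := layer_fst h
  refl h := layer_snd h

theorem up_inCells (I : Type) {m : ℕ} (A : Set (P2 m)) :
    up (inCells I A) = inCells I (up A) := by
  ext x
  constructor
  · rintro ⟨a, ha, hax⟩
    exact ⟨a.snd, ha, layer_snd hax⟩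
  · rintro ⟨a, ha, hax⟩
    exact ⟨⟨x.fst, a⟩, ha, And.intro rfl hax⟩

theorem isDwyer_inCells (I : Type) {m : ℕ} {A : Set (P2 m)} (hA : IsDwyer A) :
    IsDwyer (inCells I A) := by
  refine ⟨fun a ha b hb => hA.1 _ ha _ (layer_snd hb), fun w hw => ?_⟩
  rw [up_inCells] at hw
  obtain ⟨a, ⟨haA, haw⟩, hag⟩ := hA.2 w.snd hw
  refine ⟨⟨w.fst, a⟩, ⟨haA, And.intro rfl haw⟩, ?_⟩
  rintro ⟨k, b⟩ ⟨hb, hbw⟩
  obtain rfl : k = w.fst := layer_fst hbw
  exact And.intro rfl (hag ⟨hb, layer_snd hbw⟩)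

variable {n} {c : CylData} (T : TransData c)

include T in
theorem stable_layer (hn : 1 ≤ n) (I : Type) {m : ℕ} {A : Set (P2 m)} (hA : IsDwyer A)
    (h : inCells I A ⊆ up (inCells I A)) : Stable n (catOMap n (setIncl h)) := by
  haveI := hasColimits_nCat n
  haveI := finite_chains (Fin (m + 1))
  haveI : Finite (P2 m) := finite_chains _
  have hsub : A ⊆ up A := fun a ha => ⟨a, ha, le_rfl⟩
  let ιU : I → (↥(up A) →o ↥(up (inCells I A))) := fun i =>
    ⟨fun a => ⟨⟨i, a.1⟩, by rw [up_inCells]; exact a.2⟩, fun _ _ hab => ⟨rfl, hab⟩⟩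
  have hU : Decomp ιU := by
    refine ⟨⟨fun x y e => ?_, fun x => ?_⟩, fun e => layer_fst e, fun e => layer_snd e⟩
    · obtain ⟨i, a, ha⟩ := x
      obtain ⟨k, b, hb⟩ := y
      obtain ⟨rfl, rfl⟩ : i = k ∧ a = b :=
        ⟨congrArg (fun z => z.1.fst) e, congrArg (fun z => z.1.snd) e⟩
      rfl
    · have hx := x.2
      rw [Set.ext_iff.1 (up_inCells I A)] at hx
      exact ⟨⟨x.1.fst, ⟨x.1.snd, hx⟩⟩, rfl⟩
  obtain ⟨hcA⟩ := isColimit_catO n (decomp_part I A)
  obtain ⟨hcU⟩ := isColimit_catO n hU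
  haveI := stable_coproducts n (nerveN_filtered n) KQ.weakEq_transfinite I
  refine MorphismProperty.colimitsOfShape_le (W := stableMaps n) (J := Discrete I) _
    (MorphismProperty.colimitsOfShape.mk' _ _ _ _ hcA hcU
      (Discrete.natTrans fun i => catOMap n (setIncl hsub))
      (fun i => up_stable_gen (cAdj n) T hA hsub) _ fun i => ?_)
  show (cN n).map _ ≫ (cN n).map _ = (cN n).map _ ≫ (cN n).map _
  rw [← Functor.map_comp, ← Functor.map_comp]
  rfl

/-- Double subdivision. -/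
abbrev sdTwo : SSet.{0} ⥤ SSet.{0} := SSet.sd.{0} ⋙ SSet.sd.{0}

theorem mono_sdTwo {A B : SSet.{0}} (f : A ⟶ B) (hf : Mono f) : Mono (sdTwo.map f) :=
  mono_sd _ (mono_sd f hf)

/-- The double subdivision of a simplex. -/
def sdTwoStd (m : ℕ) : sdTwo.obj Δ[m] ≅ CategoryTheory.nerve (P2 m) :=
  SSet.sd.mapIso (Sd.stdChart m).sdIso ≪≫ (Sd.idChart _).sdIso

theorem weakEq_unit_sigma (hn : 1 ≤ n)
    (hbase : ∀ (E : Type) [PartialOrder E] [Finite E],
      weakEq ((cUnit n).app (CategoryTheory.nerve E)))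
    (I : Type) (m : ℕ) :
    weakEq ((cUnit n).app (sdTwo.obj (∐ fun _ : I => (Δ[m] : SSet.{0})))) := by
  haveI := finite_chains (Fin (m + 1))
  haveI : Finite (P2 m) := finite_chains _
  obtain ⟨hc⟩ := isColimit_nerve (decomp_cell I m)
  let hS := isColimitCofanMkObjOfIsColimit sdTwo _ _
    (coproductIsCoproduct fun _ : I => (Δ[m] : SSet.{0}))
  refine weakEq_cUnit_iso n (IsColimit.coconePointsIsoOfNatIso hS hc
    (Discrete.natIso fun _ => sdTwoStd m)).symm ?_
  exact weakEq_cUnit_decomp n hn (decomp_cell I m) fun _ => hbase _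

include T in
theorem weakEq_layer (hn : 1 ≤ n)
    (hbase : ∀ (E : Type) [PartialOrder E] [Finite E],
      weakEq ((cUnit n).app (CategoryTheory.nerve E)))
    (m : ℕ) (I : Type) {X Y : SSet.{0}} (g : (∐ fun _ : I => (∂Δ[m] : SSet.{0})) ⟶ X)
    (i : X ⟶ Y) (b : (∐ fun _ : I => (Δ[m] : SSet.{0})) ⟶ Y)
    (sq : IsPushout g (Limits.Sigma.map fun _ : I => ∂Δ[m].ι) i b)
    (ha : weakEq ((cUnit n).app (sdTwo.obj (∐ fun _ : I => (∂Δ[m] : SSet.{0})))))
    (hx : weakEq ((cUnit n).app (sdTwo.obj X))) : weakEq ((cUnit n).app (sdTwo.obj Y)) := by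
  haveI := hasColimits_nCat n
  obtain ⟨A, hA, ⟨e⟩⟩ := sd2_boundary m
  let A' := inCells I A
  have hsub : A' ⊆ up A' := fun a ha => ⟨a, ha, le_rfl⟩
  obtain ⟨hcA⟩ := isColimit_nerve (decomp_part I A)
  obtain ⟨hcE⟩ := isColimit_nerve (decomp_cell I m)
  let hSA := isColimitCofanMkObjOfIsColimit sdTwo _ _
    (coproductIsCoproduct fun _ : I => (∂Δ[m] : SSet.{0}))
  let hSE := isColimitCofanMkObjOfIsColimit sdTwo _ _
    (coproductIsCoproduct fun _ : I => (Δ[m] : SSet.{0}))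
  let eA : sdTwo.obj (∐ fun _ : I => (∂Δ[m] : SSet.{0})) ≅ CategoryTheory.nerve A' :=
    IsColimit.coconePointsIsoOfNatIso hSA hcA (Discrete.natIso fun _ => Arrow.leftFunc.mapIso e)
  let eE : sdTwo.obj (∐ fun _ : I => (Δ[m] : SSet.{0})) ≅ CategoryTheory.nerve (Layer I m) :=
    IsColimit.coconePointsIsoOfNatIso hSE hcE (Discrete.natIso fun _ => Arrow.rightFunc.mapIso e)
  let v₀ : CategoryTheory.nerve A' ⟶ (CategoryTheory.nerve (Layer I m) : SSet.{0}) :=
    CategoryTheory.nerveMap (setVal A').monotone.functor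
  have hA1 : ∀ k, sdTwo.map (Sigma.ι (fun _ : I => (∂Δ[m] : SSet.{0})) k) ≫ eA.hom =
      e.hom.left ≫ CategoryTheory.nerveMap (partIncl A k).monotone.functor := fun k =>
    IsColimit.comp_coconePointsIsoOfNatIso_hom hSA hcA
      (Discrete.natIso fun _ => Arrow.leftFunc.mapIso e) ⟨k⟩
  have hE1 : ∀ k, sdTwo.map (Sigma.ι (fun _ : I => (Δ[m] : SSet.{0})) k) ≫ eE.hom =
      e.hom.right ≫ CategoryTheory.nerveMap (cellIncl (I := I) m k).monotone.functor := fun k =>
    IsColimit.comp_coconePointsIsoOfNatIso_hom hSE hcE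
      (Discrete.natIso fun _ => Arrow.rightFunc.mapIso e) ⟨k⟩
  have hsquare : sdTwo.map (Limits.Sigma.map fun _ : I => ∂Δ[m].ι) ≫ eE.hom = eA.hom ≫ v₀ := by
    refine hSA.hom_ext fun ⟨k⟩ => ?_
    show sdTwo.map (Sigma.ι (fun _ : I => (∂Δ[m] : SSet.{0})) k) ≫ _ =
      sdTwo.map (Sigma.ι (fun _ : I => (∂Δ[m] : SSet.{0})) k) ≫ _
    rw [← Category.assoc, ← Category.assoc, hA1, ← Functor.map_comp, Sigma.ι_map,
      Functor.map_comp, Category.assoc, hE1, Category.assoc, ← Category.assoc (sdTwo.map _)]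
    exact ((congrArg (· ≫ CategoryTheory.nerveMap (cellIncl (I := I) m k).monotone.functor)
      e.hom.w).symm.trans (Category.assoc _ _ _))
  have hS : IsPushout (eA.inv ≫ sdTwo.map g) v₀ (sdTwo.map i) (eE.inv ≫ sdTwo.map b) :=
    (sq.map sdTwo).of_iso eA (Iso.refl _) eE (Iso.refl _) (by simp) hsquare (by simp) (by simp)
  haveI := (cAdj n).leftAdjoint_preservesColimits
  let gC : catO n A' ⟶ (cN n).obj (sdTwo.obj X) := (cN n).map (eA.inv ≫ sdTwo.map g)
  let jY : catO n (Layer I m) ⟶ (cN n).obj (sdTwo.obj Y) := (cN n).map (eE.inv ≫ sdTwo.map b)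
  let u := catOMap n (setIncl hsub)
  let v := catOMap n (setVal (up A'))
  have huv : u ≫ v = (cN n).map v₀ := by
    show (cN n).map _ ≫ (cN n).map _ = _
    rw [← Functor.map_comp]
    rfl
  have hc : IsPushout gC (u ≫ v) ((cN n).map (sdTwo.map i)) jY := by
    rw [huv]
    exact hS.map (cN n)
  have hD : IsPushout gC u (pushout.inl gC u) (pushout.inr gC u) := IsPushout.of_hasPushout _ _
  have hcond : gC ≫ (cN n).map (sdTwo.map i) = u ≫ v ≫ jY := by rw [hc.w, Category.assoc]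
  let i' : pushout gC u ⟶ (cN n).obj (sdTwo.obj Y) := pushout.desc _ (v ≫ jY) hcond
  have hP : IsPushout (pushout.inr gC u) v i' jY := by
    refine IsPushout.of_top ?_ (pushout.inr_desc _ _ _) hD
    rw [show pushout.inl gC u ≫ i' = (cN n).map (sdTwo.map i) from pushout.inl_desc _ _ _]
    exact hc
  obtain ⟨hN, hm⟩ := nerve_collage n hn (isDwyer_inCells I hA) hsub _ _ _ hD _ _ hP
  have hst := stable_layer T hn I hA hsub
  have hu := weakEq_of_stable n hst
  have hDw := hst _ _ _ hD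
  haveI : Mono v₀ := mono_nerveMap_setVal _
  refine KQ.weakEq_glue hS hN (a := (cUnit n).app (CategoryTheory.nerve A') ≫ (nerveN n).map u)
    (b := (cUnit n).app (CategoryTheory.nerve (Layer I m)))
    (x := (cUnit n).app (sdTwo.obj X) ≫ (nerveN n).map (pushout.inl gC u)) ?_ ?_ ?_ ?_
    (KQ.weakEq_comp (weakEq_cUnit_iso n eA ha) hu.1)
    (weakEq_cUnit_iso n eE (weakEq_unit_sigma hn hbase I m))
    (KQ.weakEq_comp hx hDw.1)
  · exact (cUnit_nat n v₀).trans ((congrArg (fun w => (cUnit n).app _ ≫ w)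
      ((congrArg (nerveN n).map huv.symm).trans ((nerveN n).map_comp u v))).trans
      (Category.assoc _ _ _).symm)
  · exact (Category.assoc _ _ _).symm.trans ((congrArg (· ≫ (nerveN n).map (pushout.inl gC u))
      (cUnit_nat n (eA.inv ≫ sdTwo.map g))).trans ((Category.assoc _ _ _).trans
        ((congrArg (fun w => (cUnit n).app _ ≫ w) ((((nerveN n).map_comp gC _).symm.trans
          (congrArg (nerveN n).map hD.w)).trans ((nerveN n).map_comp u _))).trans
          (Category.assoc _ _ _).symm)))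
  · exact (cUnit_nat n (sdTwo.map i)).trans ((congrArg (fun w => (cUnit n).app _ ≫ w)
      ((congrArg (nerveN n).map (pushout.inl_desc _ _ hcond).symm).trans
        ((nerveN n).map_comp _ i'))).trans (Category.assoc _ _ _).symm)
  · exact cUnit_nat n (eE.inv ≫ sdTwo.map b)

end Vale.Agent.P213.Unit
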