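import Vale.Agent.P213.Unit.Induction
import Vale.Agent.P213.Sd.Horn
import Vale.Agent.P213.Main.SSet

/-!
# P213, unit: subdivision preserves monomorphisms, and the unit of `Sd ⊣ Ex` is a weak equivalence
-/

open CategoryTheory Limits MonoidalCategory CartesianMonoidalCategory Simplicial Opposite
  PartialOrder

noncomputable section

namespace Vale.Agent.P213.Unit

theorem mono_nerveMap_setVal {E : Type} [PartialOrder E] (A : Set E) :
    Mono (CategoryTheory.nerveMap (setVal A).monotone.functor :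
      CategoryTheory.nerve A ⟶ (CategoryTheory.nerve E : SSet.{0})) := by
  have : ∀ d, Mono ((CategoryTheory.nerveMap (setVal A).monotone.functor :
      CategoryTheory.nerve A ⟶ (CategoryTheory.nerve E : SSet.{0})).app d) := fun d =>
    (mono_iff_injective _).2 fun x y h => nerve.ext_of_isThin (funext fun i =>
      Subtype.ext (congrArg (fun s : (CategoryTheory.nerve E).obj d => s.obj i) h))
  exact NatTrans.mono_of_mono_app _

theorem mono_sd_boundary (m : ℕ) : Mono (SSet.sd.{0}.map ∂Δ[m].ι) := by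
  let P : Set (NonemptyFiniteChains (Fin (m + 1))) := {S | ∃ j, j ∉ S.finset}
  have hA : ∀ d x, x ∈ (∂Δ[m] : (Δ[m] : SSet.{0}).Subcomplex).obj d ↔
      Sd.verts ((Sd.stdMap m).app d x) ∈ P := fun d x => by
    obtain ⟨⟨d⟩⟩ := d
    rw [SSet.mem_boundary_iff_notMem_range]
    refine exists_congr fun j => ?_
    rw [Set.mem_range]
    refine not_congr ?_
    rw [Sd.mem_image]
    exact ⟨fun ⟨k, hk⟩ => ⟨ULift.up k, Finset.mem_univ _, hk⟩, fun ⟨k, _, hk⟩ => ⟨k.down, hk⟩⟩
  have h1 := (Sd.subChart _ P hA).sdMap_naturality (Sd.stdChart m) (∂Δ[m] : _).ι OrderHom.id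
    (setVal P) rfl fun t => by
      ext a
      simp [Sd.subChart, Sd.stdChart, setVal]
      rfl
  have := (Sd.subChart _ P hA).isIso_sdMap
  have := mono_nerveMap_setVal P
  have : Mono (SSet.sd.{0}.map ∂Δ[m].ι ≫ (Sd.stdChart m).sdMap) := by
    rw [h1]
    exact mono_comp _ _
  exact mono_of_mono _ (Sd.stdChart m).sdMap

theorem mono_sd {A B : SSet.{0}} (f : A ⟶ B) (hf : Mono f) : Mono (SSet.sd.{0}.map f) := by
  refine KQ.llp_rlp_I_le _ fun E B' p hp => ?_
  rw [SSet.sdExAdjunction.hasLiftingProperty_iff]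
  have : SSet.modelCategoryQuillen.I.rlp (SSet.ex.{0}.map p) := by
    rintro _ _ _ ⟨m⟩
    rw [← SSet.sdExAdjunction.hasLiftingProperty_iff]
    exact (KQ.trivFib_iff p).2 hp _ (mono_sd_boundary m)
  exact (KQ.trivFib_iff _).2 this f hf

/-- The nerve of a poset with a largest element is contractible. -/
theorem weakEq_toPt_nerve {P : Type} [PartialOrder P] (t : P) (ht : ∀ p, p ≤ t) :
    weakEq (KQ.toPt (CategoryTheory.nerve P : SSet.{0})) := by
  classical
  let c : ∀ d, (CategoryTheory.nerve P : SSet.{0}).obj d × (Δ[1] : SSet.{0}).obj d →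
      (CategoryTheory.nerve P : SSet.{0}).obj d := fun d x =>
    Monotone.functor (f := fun k => if SSet.stdSimplex.asOrderHom x.2 k = 0 then x.1.obj k else t)
      (fun a b hab => by
        show (if SSet.stdSimplex.asOrderHom x.2 a = 0 then x.1.obj a else t) ≤
          (if SSet.stdSimplex.asOrderHom x.2 b = 0 then x.1.obj b else t)
        by_cases hb : SSet.stdSimplex.asOrderHom x.2 b = 0
        · have ha : SSet.stdSimplex.asOrderHom x.2 a = 0 :=
            le_antisymm (hb ▸ (SSet.stdSimplex.asOrderHom x.2).monotone hab) (Fin.zero_le _)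
          rw [if_pos ha, if_pos hb]
          exact leOfHom (x.1.map (homOfLE hab))
        · rw [if_neg hb]
          exact ht _)
  let H : (CategoryTheory.nerve P : SSet.{0}) ⊗ Δ[1] ⟶ CategoryTheory.nerve P :=
    { app := fun d => ↾fun x => c d x
      naturality := fun d d' f => by
        ext x
        rfl }
  let pt : (Δ[0] : SSet.{0}) ⟶ CategoryTheory.nerve P :=
    SSet.const (Monotone.functor (f := fun _ : Fin 1 => t) fun _ _ _ => le_rfl)
  have h : Htpc (𝟙 (CategoryTheory.nerve P : SSet.{0})) (KQ.toPt _ ≫ pt) := by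
    refine KQ.htpc_iff.2 ⟨H, ?_, ?_⟩
    · ext d x
      rename_i k
      show (if ((0 : Fin 2) = 0) then x.obj k else t) = x.obj k
      exact if_pos rfl
    · ext d x
      rename_i k
      show (if ((1 : Fin 2) = 0) then x.obj k else t) = t
      exact if_neg (by decide)
  exact KQ.weakEq_of_inverse _ pt (Quot.sound h).symm (congrArg KQ.cls SSet.stdSimplex.ext₀)

theorem weakEq_of_contractible {X Y : SSet.{0}} (f : X ⟶ Y) (hX : weakEq (KQ.toPt X))
    (hY : weakEq (KQ.toPt Y)) : weakEq f :=
  KQ.weakEq_of_comp_right hY (by rwa [show f ≫ KQ.toPt Y = KQ.toPt X from SSet.stdSimplex.ext₀])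

theorem weakEq_toPt_of_iso {X Y : SSet.{0}} (e : X ≅ Y) (hY : weakEq (KQ.toPt Y)) :
    weakEq (KQ.toPt X) := by
  rw [show KQ.toPt X = e.hom ≫ KQ.toPt Y from SSet.stdSimplex.ext₀]
  exact KQ.weakEq_comp (KQ.weakEq_of_isIso _) hY

theorem weakEq_toPt_stdSimplex (m : ℕ) : weakEq (KQ.toPt (Δ[m] : SSet.{0})) := by
  have : IsIso (Sd.stdMap m) := by
    have : ∀ d, IsIso ((Sd.stdMap m).app d) := fun d =>
      (isIso_iff_bijective _).2 ⟨Sd.stdMap_injective d, Sd.stdMap_surjective d⟩
    exact NatIso.isIso_of_isIso_app _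
  exact weakEq_toPt_of_iso (asIso (Sd.stdMap m)) (weakEq_toPt_nerve (Fin.last m) Fin.le_last)

/-- The chain of all vertices. -/
def allChain (m : ℕ) : NonemptyFiniteChains (Fin (m + 1)) where
  finset := Finset.univ
  nonempty := ⟨0, Finset.mem_univ _⟩
  comparable x y := le_total x.1 y.1

theorem weakEq_toPt_sd_stdSimplex (m : ℕ) :
    weakEq (KQ.toPt (SSet.sd.{0}.obj Δ[m])) :=
  weakEq_toPt_of_iso (Sd.stdChart m).sdIso
    (weakEq_toPt_nerve (allChain m) fun S x _ => Finset.mem_univ x)

/-- A transformation of functors preserving coproducts is a weak equivalence at a coproduct if it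
is one at the summands. -/
theorem weakEq_app_sigma {S G : SSet.{0} ⥤ SSet.{0}} (φ : S ⟶ G) {I : Type} (A : I → SSet.{0})
    [PreservesColimit (Discrete.functor A) S] [PreservesColimit (Discrete.functor A) G]
    (h : ∀ i, weakEq (φ.app (A i))) : weakEq (φ.app (∐ A)) := by
  have e : φ.app (∐ A) = (PreservesCoproduct.iso S A).hom ≫
      Limits.Sigma.map (fun i => φ.app (A i)) ≫ (PreservesCoproduct.iso G A).inv := by
    rw [← Iso.inv_comp_eq, PreservesCoproduct.inv_hom, PreservesCoproduct.inv_hom]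
    refine Limits.Sigma.hom_ext _ _ fun i => ?_
    rw [ι_comp_sigmaComparison_assoc, Sigma.ι_map_assoc, ι_comp_sigmaComparison]
    exact φ.naturality _
  rw [e]
  exact KQ.weakEq_comp (KQ.weakEq_of_isIso _)
    (KQ.weakEq_comp (KQ.weakEq_sigmaMap _ h) (KQ.weakEq_of_isIso _))

/-- The last vertex map, adjoint to `X ⟶ Ex X`. -/
def lastV : SSet.sd.{0} ⟶ 𝟭 SSet.{0} where
  app X := (SSet.sdExAdjunction.homEquiv X X).symm (exUnit.app X)
  naturality X Y f :=
    (SSet.sdExAdjunction.{0}.homEquiv_naturality_left_symm f (exUnit.app Y)).symm.trans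
      ((congrArg _ (exUnit.naturality f)).trans
        (SSet.sdExAdjunction.{0}.homEquiv_naturality_right_symm (exUnit.app X) f))

theorem weakEq_lastV (K : SSet.{0}) : weakEq (lastV.app K) := by
  refine weakEq_of_skeleta lastV (fun A B f hf => mono_sd f hf) ?_ ?_ K
  · intro K hK
    have : IsIso (lastV.app K) :=
      isIso_of_isInitial (IsInitial.isInitialObj SSet.sd.{0} K hK) hK _
    exact KQ.weakEq_of_isIso _
  · intro m I X Y g i b sq _ ha hx
    have : Mono (Limits.Sigma.map fun _ : I => (∂Δ[m].ι : _ ⟶ (Δ[m] : SSet.{0}))) :=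
      MorphismProperty.colimMap (W := MorphismProperty.monomorphisms SSet.{0})
        (Discrete.natTrans fun _ => ∂Δ[m].ι :
          Discrete.functor (fun _ : I => (∂Δ[m] : SSet.{0})) ⟶
            Discrete.functor fun _ : I => (Δ[m] : SSet.{0}))
        fun _ => MorphismProperty.monomorphisms.infer_property ∂Δ[m].ι
    have := mono_sd _ this
    refine KQ.weakEq_glue (sq.map SSet.sd.{0}) sq (a := lastV.app _) (b := lastV.app _)
      (x := lastV.app _) ?_ ?_ ?_ ?_ ha (weakEq_app_sigma lastV _ fun _ =>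
        weakEq_of_contractible _ (weakEq_toPt_sd_stdSimplex m) (weakEq_toPt_stdSimplex m)) hx
    · exact lastV.naturality _
    · exact lastV.naturality _
    · exact lastV.naturality _
    · exact lastV.naturality _

theorem weakEq_ex_map_iff {X Y : SSet.{0}} (f : X ⟶ Y) :
    weakEq (SSet.ex.{0}.map f) ↔ weakEq f := by
  have e : f ≫ exUnit.app Y = exUnit.app X ≫ SSet.ex.map f := exUnit.naturality f
  refine ⟨fun hf => ?_, fun hf => ?_⟩
  · refine KQ.weakEq_of_comp_right (weakEq_exUnit Y) ?_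
    rw [e]
    exact KQ.weakEq_comp (weakEq_exUnit X) hf
  · refine KQ.weakEq_of_comp_left (weakEq_exUnit X) ?_
    rw [← e]
    exact KQ.weakEq_comp hf (weakEq_exUnit Y)

/-- The unit of `Sd ⊣ Ex` is a weak equivalence. -/
theorem weakEq_sdUnit (X : SSet.{0}) : weakEq (SSet.sdExAdjunction.{0}.unit.app X) := by
  have e : exUnit.app X = SSet.sdExAdjunction.{0}.unit.app X ≫ SSet.ex.map (lastV.app X) := by
    exact ((SSet.sdExAdjunction.homEquiv X X).apply_symm_apply _).symm.trans
      (Adjunction.homEquiv_unit _ _ _ _)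
  refine KQ.weakEq_of_comp_right ((weakEq_ex_map_iff _).2 (weakEq_lastV X)) ?_
  rw [← e]
  exact weakEq_exUnit X

end Vale.Agent.P213.Unit
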